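import Vale.Agent.P224.Stmt

/-!
Auxiliary definitions: Gaussian kernels, stationary cones, links and charts.
-/

namespace Vale.Agent.P224

open scoped RealInnerProductSpace ENNReal Topology
open MeasureTheory Set Filter

/-- The Gaussian kernel with `n`-dimensional normalisation, centre `z` and variance `t`. -/
noncomputable def gk (n : ℕ) {N : ℕ} (z : Euc N) (t : ℝ) (x : Euc N) : ℝ :=
  (2 * Real.pi * t) ^ (-(n : ℝ) / 2) * Real.exp (-‖x - z‖ ^ 2 / (2 * t))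

/-- The Mehler kernel of `ℝ^N`. -/
noncomputable def meh {N : ℕ} (ρ : ℝ) (x y : Euc N) : ℝ :=
  (1 - ρ ^ 2) ^ (-(N : ℝ) / 2) *
    Real.exp ((2 * ρ * ⟪x, y⟫ - ρ ^ 2 * ‖x‖ ^ 2 - ρ ^ 2 * ‖y‖ ^ 2) / (2 * (1 - ρ ^ 2)))

/-- An `n`-dimensional stationary cone in `ℝ^(n+1)` with density at least one: position `X`,
tangent projection `P`. -/
structure Cone (n : ℕ) (Ω : Type*) [MeasurableSpace Ω] where
  μ : Measure Ω
  X : Ω → Euc (n + 1)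
  P : Ω → Euc (n + 1) →L[ℝ] Euc (n + 1)
  Z : Set (Euc (n + 1))
  sf : SFinite μ
  mX : Measurable X
  mP : ∀ v, Measurable fun ω => P ω v
  symm : ∀ ω u v, ⟪P ω u, v⟫ = ⟪u, P ω v⟫
  nonneg : ∀ ω v, 0 ≤ ⟪P ω v, v⟫
  nrm : ∀ ω v, ‖P ω v‖ ≤ ‖v‖
  tr : ∀ ω, ∑ i, P ω (EuclideanSpace.single i 1) i = n
  fix : ∀ ω, P ω (X ω) = X ω
  integ : ∀ c : ℝ, 0 < c → Integrable (fun ω => Real.exp (-c * ‖X ω‖ ^ 2)) μ
  stat : ∀ (g : Euc (n + 1) → ℝ) (C c : ℝ), ContDiff ℝ 1 g → 0 < c →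
    (∀ x, |g x| ≤ C * Real.exp (-c * ‖x‖ ^ 2)) →
    (∀ x, ‖fderiv ℝ g x‖ ≤ C * Real.exp (-c * ‖x‖ ^ 2)) →
    ∀ v, ∫ ω, fderiv ℝ g (X ω) (P ω v) ∂μ = 0
  scale : ∀ l : ℝ, 0 < l → ∀ h : Euc (n + 1) → (Euc (n + 1) →L[ℝ] Euc (n + 1)) → ℝ,
    ∫ ω, h (l • X ω) (P ω) ∂μ = (l ^ n)⁻¹ * ∫ ω, h (X ω) (P ω) ∂μ
  aeZ : ∀ᵐ ω ∂μ, X ω ∈ Z
  smulZ : ∀ z ∈ Z, ∀ l : ℝ, 0 < l → l • z ∈ Z
  dens : ∀ z ∈ Z, ∀ W : Euc (n + 1) → ℝ, Continuous W → (∀ x, 0 ≤ W x) → ∀ b < W z,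
    ∀ᶠ t in 𝓝[>] (0 : ℝ),
      ENNReal.ofReal b ≤ ∫⁻ ω, ENNReal.ofReal (gk n z t (X ω) * W (X ω)) ∂μ

instance Cone.instSFinite {n : ℕ} {Ω : Type*} [MeasurableSpace Ω] (C : Cone n Ω) : SFinite C.μ :=
  C.sf

/-- The Gaussian density of the cone. -/
noncomputable def Cone.θ {n : ℕ} {Ω : Type*} [MeasurableSpace Ω] (C : Cone n Ω) : ℝ :=
  ∫ ω, gk n 0 1 (C.X ω) ∂C.μ

/-- The Gaussian second moment in the direction `a`. -/
noncomputable def Cone.S {n : ℕ} {Ω : Type*} [MeasurableSpace Ω] (C : Cone n Ω)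
    (a : Euc (n + 1)) : ℝ :=
  ∫ ω, gk n 0 1 (C.X ω) * ⟪a, C.X ω⟫ ^ 2 ∂C.μ

/-- The Mehler quadratic form of the weight `h`. -/
noncomputable def Cone.Q {n : ℕ} {Ω : Type*} [MeasurableSpace Ω] (C : Cone n Ω) (h : Ω → ℝ)
    (ρ : ℝ) : ℝ :=
  ∫ p : Ω × Ω, (gk n 0 1 (C.X p.1) * h p.1) * (gk n 0 1 (C.X p.2) * h p.2) *
    meh ρ (C.X p.1) (C.X p.2) ∂(C.μ.prod C.μ)

/-- Measurable functions of sub-Gaussian growth. -/
def Cone.SG {n : ℕ} {Ω : Type*} [MeasurableSpace Ω] (C : Cone n Ω) (h : Ω → ℝ) : Prop :=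
  Measurable h ∧ ∀ ε : ℝ, 0 < ε → ∃ K : ℝ, ∀ ω, |h ω| ≤ K * Real.exp (ε * ‖C.X ω‖ ^ 2)

/-- A stationary `m`-dimensional link in the unit sphere of `ℝ^(m+2)`: finite measure `σ`,
position `x`, tangent projection `P`, and a parametrised piece through every point. -/
structure Link (m : ℕ) (M : Type*) [MeasurableSpace M] where
  σ : Measure M
  x : M → Euc (m + 2)
  P : M → Euc (m + 2) →L[ℝ] Euc (m + 2)
  fin : IsFiniteMeasure σ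
  mx : Measurable x
  mP : ∀ v, Measurable fun p => P p v
  unit : ∀ p, ‖x p‖ = 1
  symm : ∀ p u v, ⟪P p u, v⟫ = ⟪u, P p v⟫
  idem : ∀ p v, P p (P p v) = P p v
  tr : ∀ p, ∑ i, P p (EuclideanSpace.single i 1) i = m
  ker : ∀ p, P p (x p) = 0
  stat : ∀ g : Euc (m + 2) → ℝ, ContDiff ℝ 1 g → ∀ v,
    ∫ p, fderiv ℝ g (x p) (P p v) ∂σ = m * ∫ p, g (x p) * ⟪x p, v⟫ ∂σ
  piece : ∀ p, ∃ (U : Set (Euc m)) (z : Euc m) (φ : Euc m → Euc (m + 2)), IsOpen U ∧ z ∈ U ∧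
    ContDiffOn ℝ 1 φ U ∧ φ z = x p ∧ (∀ y ∈ U, ‖φ y‖ = 1) ∧
    Function.Injective (fderiv ℝ φ z) ∧
    ∀ h : Euc (m + 2) → ℝ≥0∞, Measurable h →
      ∫⁻ y in U, h (φ y) * ENNReal.ofReal √(gram φ y).det ≤ ∫⁻ q, h (x q) ∂σ

/-- The Gram operator `Aᵀ A`. -/
noncomputable def gop {m N : ℕ} (A : Euc m →L[ℝ] Euc N) : Euc m →L[ℝ] Euc m :=
  (ContinuousLinearMap.adjoint A).comp A

/-- The coordinates of the tangential part of `v`: `(Aᵀ A)⁻¹ Aᵀ v`. -/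
noncomputable def tco {m N : ℕ} (A : Euc m →L[ℝ] Euc N) : Euc N →L[ℝ] Euc m :=
  (gop A).inverse.comp (ContinuousLinearMap.adjoint A)

/-- The orthogonal projection `A (Aᵀ A)⁻¹ Aᵀ` onto the range of `A`. -/
noncomputable def prj {m N : ℕ} (A : Euc m →L[ℝ] Euc N) : Euc N →L[ℝ] Euc N :=
  A.comp (tco A)

/-- The chart-level facts about a smooth immersion of `M` into the unit sphere. -/
structure Imm (m : ℕ) {N : ℕ} {M : Type*} [TopologicalSpace M] [ChartedSpace (Euc m) M]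
    (F : M → Euc N) : Prop where
  cont : Continuous F
  unit : ∀ p, ‖F p‖ = 1
  smooth : ∀ e ∈ atlas (Euc m) M, ContDiffOn ℝ 2 (F ∘ e.symm) e.target
  trans : ∀ e ∈ atlas (Euc m) M, ∀ e' ∈ atlas (Euc m) M,
    ContDiffOn ℝ 2 (e' ∘ e.symm) (e.target ∩ e.symm ⁻¹' e'.source)
  inj : ∀ e ∈ atlas (Euc m) M, ∀ z ∈ e.target, Function.Injective (fderiv ℝ (F ∘ e.symm) z)

/-- The volume measure of a chart, carried to `M`. -/
noncomputable def chm (m : ℕ) {N : ℕ} {M : Type*} [TopologicalSpace M] [MeasurableSpace M]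
    (F : M → Euc N) (e : OpenPartialHomeomorph M (Euc m)) : Measure M :=
  Measure.map e.symm ((volume.restrict e.target).withDensity
    fun z => ENNReal.ofReal √(gram (F ∘ e.symm) z).det)

/-- The tangent projection of the immersion at `p`. -/
noncomputable def tp (m : ℕ) {N : ℕ} {M : Type*} [TopologicalSpace M] [ChartedSpace (Euc m) M]
    (F : M → Euc N) (p : M) : Euc N →L[ℝ] Euc N :=
  prj (fderiv ℝ (F ∘ (chartAt (Euc m) p).symm) (chartAt (Euc m) p p))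

end Vale.Agent.P224
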